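import Vale.Agent.P211.MathlibUsed

namespace Vale.Agent.P211.St

open scoped Manifold ContDiff
open Bundle VectorField

noncomputable section

/-- `M` is a smooth manifold modelled on `E`. -/
abbrev Mfd (E M : Type*) [NormedAddCommGroup E] [NormedSpace ℝ E] [TopologicalSpace M]
  [ChartedSpace E M] : Prop := IsManifold 𝓘(ℝ, E) ∞ M

/-- A scalar product on each tangent space of `M`. -/
abbrev Metric (E M : Type*) [NormedAddCommGroup E] [NormedSpace ℝ E] [TopologicalSpace M]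
  [ChartedSpace E M] : Type _ := RiemannianBundle fun p : M => TangentSpace 𝓘(ℝ, E) p

/-- Vector fields on the manifold `M` modelled on `E`. -/
abbrev Fld (E M : Type*) [NormedAddCommGroup E] [NormedSpace ℝ E] [TopologicalSpace M]
  [ChartedSpace E M] : Type _ := (p : M) → TangentSpace 𝓘(ℝ, E) p

/-- Affine connections on `M`. -/
abbrev Conn (E M : Type*) [NormedAddCommGroup E] [NormedSpace ℝ E] [TopologicalSpace M]
  [ChartedSpace E M] [Mfd E M] : Type _ :=
  CovariantDerivative 𝓘(ℝ, E) E (TangentSpace 𝓘(ℝ, E) : M → Type _)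

variable {E : Type*} [NormedAddCommGroup E] [NormedSpace ℝ E]
  {M : Type*} [TopologicalSpace M] [ChartedSpace E M] [Mfd E M]

/-- `X` is a smooth vector field. -/
def Smooth (X : Fld E M) : Prop :=
  ContMDiff 𝓘(ℝ, E) (𝓘(ℝ, E).prod 𝓘(ℝ, E)) ∞ fun p => (⟨p, X p⟩ : TangentBundle 𝓘(ℝ, E) M)

/-- The vector field `∇_X Y`. -/
def nab (cov : Conn E M) (X Y : Fld E M) : Fld E M := fun p => cov Y p (X p)

variable [Metric E M]

/-- The function `⟨X, Y⟩`. -/
def ip (X Y : Fld E M) (p : M) : ℝ := inner ℝ (X p) (Y p)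

variable (cov : Conn E M)

/-- `cov` is the Levi-Civita connection: smooth, torsion free and metric. -/
def IsLeviCivita : Prop :=
  cov.ContMDiffCovariantDerivative ∞ ∧
  (∀ X Y, Smooth X → Smooth Y → nab cov X Y - nab cov Y X = mlieBracket 𝓘(ℝ, E) X Y) ∧
  ∀ X Y Z, Smooth X → Smooth Y → Smooth Z → ∀ p : M,
    mvfderiv 𝓘(ℝ, E) (ip Y Z) p (X p) = ip (nab cov X Y) Z p + ip Y (nab cov X Z) p

/-- The Riemann tensor `⟨∇_X ∇_Y Z - ∇_Y ∇_X Z - ∇_[X,Y] Z, W⟩` at `p`. -/
def Riem (X Y Z W : Fld E M) (p : M) : ℝ :=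
  ip (nab cov X (nab cov Y Z) - nab cov Y (nab cov X Z) - nab cov (mlieBracket 𝓘(ℝ, E) X Y) Z) W p

/-- The covariant derivative `(∇_U R)(X, Y, Z, W)` of the Riemann tensor at `p`. -/
def dRiem (U X Y Z W : Fld E M) (p : M) : ℝ :=
  mvfderiv 𝓘(ℝ, E) (Riem cov X Y Z W) p (U p) - Riem cov (nab cov U X) Y Z W p
    - Riem cov X (nab cov U Y) Z W p - Riem cov X Y (nab cov U Z) W p
    - Riem cov X Y Z (nab cov U W) p

/-- `F` consists of four smooth vector fields which are orthonormal at `p`. -/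
def Ortho (F : Fin 4 → Fld E M) (p : M) : Prop :=
  ∀ i j, Smooth (F i) ∧ ip (F i) (F j) p = if i = j then 1 else 0

/-- The scalar product `⟨X ∧ Y, Z ∧ W⟩` at `p`. -/
def dot (X Y Z W : Fld E M) (p : M) : ℝ := ip X Z p * ip Y W p - ip X W p * ip Y Z p

/-- `Ric = lam g`. -/
def IsEinstein (lam : ℝ) : Prop :=
  ∀ (p : M) (F : Fin 4 → Fld E M), Ortho F p →
    ∀ Y Z, Smooth Y → Smooth Z → ∑ i, Riem cov (F i) Y Z (F i) p = lam * ip Y Z p

/-- At every point the minimum of the sectional curvature over all tangent planes is `k`. -/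
def MinSec (k : ℝ) : Prop :=
  ∀ p : M, (∀ X Y, Smooth X → Smooth Y → k * dot X Y X Y p ≤ Riem cov X Y Y X p) ∧
    ∃ F, Ortho F p ∧ Riem cov (F 0) (F 1) (F 1) (F 0) p = k

end

end Vale.Agent.P211.St
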