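import Vale.Agent.P211.MathlibUsed2

namespace Vale.Agent.P211.SD

open scoped Manifold ContDiff Topology
open Bundle VectorField MeasureTheory Filter

noncomputable section

/-- `M` is a smooth manifold modelled on `E`. -/
abbrev Mfd (E M : Type) [NormedAddCommGroup E] [NormedSpace ℝ E] [TopologicalSpace M]
  [ChartedSpace E M] : Prop := IsManifold 𝓘(ℝ, E) ∞ M

/-- A scalar product on each tangent space of `M`. -/
abbrev Metric (E M : Type) [NormedAddCommGroup E] [NormedSpace ℝ E] [TopologicalSpace M]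
  [ChartedSpace E M] : Type := RiemannianBundle fun p : M => TangentSpace 𝓘(ℝ, E) p

/-- Vector fields on `M`. -/
abbrev Fld (E M : Type) [NormedAddCommGroup E] [NormedSpace ℝ E] [TopologicalSpace M]
  [ChartedSpace E M] : Type := (p : M) → TangentSpace 𝓘(ℝ, E) p

/-- Affine connections on `M`. -/
abbrev Conn (E M : Type) [NormedAddCommGroup E] [NormedSpace ℝ E] [TopologicalSpace M]
  [ChartedSpace E M] [Mfd E M] : Type :=
  CovariantDerivative 𝓘(ℝ, E) E (TangentSpace 𝓘(ℝ, E) : M → Type)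

variable {E : Type} [NormedAddCommGroup E] [NormedSpace ℝ E]
  {M : Type} [TopologicalSpace M] [ChartedSpace E M] [Mfd E M]

/-- `X` is a smooth vector field. -/
def Smooth (X : Fld E M) : Prop :=
  ContMDiff 𝓘(ℝ, E) (𝓘(ℝ, E).prod 𝓘(ℝ, E)) ∞ fun p => (⟨p, X p⟩ : TangentBundle 𝓘(ℝ, E) M)

/-- The vector field `∇_X Y`. -/
def nab (cov : Conn E M) (X Y : Fld E M) : Fld E M := fun p => cov Y p (X p)

variable [Metric E M]

/-- The function `⟨X, Y⟩`. -/
def ip (X Y : Fld E M) (p : M) : ℝ := inner ℝ (X p) (Y p)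

/-- `cov` is the Levi-Civita connection: smooth, torsion free and metric. -/
def IsLeviCivita (cov : Conn E M) : Prop :=
  cov.ContMDiffCovariantDerivative ∞ ∧
  ∀ X Y, Smooth X → Smooth Y → ∀ p : M,
    nab cov X Y p - nab cov Y X p = mlieBracket 𝓘(ℝ, E) X Y p ∧
    ∀ Z, Smooth Z →
      mvfderiv 𝓘(ℝ, E) (ip Y Z) p (X p) = ip (nab cov X Y) Z p + ip Y (nab cov X Z) p

/-- The Riemann tensor `⟨∇_X ∇_Y Z - ∇_Y ∇_X Z - ∇_[X,Y] Z, W⟩` at `p`. -/
def Riem (cov : Conn E M) (X Y Z W : Fld E M) (p : M) : ℝ :=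
  ip (nab cov X (nab cov Y Z)) W p - ip (nab cov Y (nab cov X Z)) W p
    - ip (nab cov (mlieBracket 𝓘(ℝ, E) X Y) Z) W p

/-- `F` consists of four smooth vector fields which are orthonormal at `p`. -/
def Ortho (F : Fin 4 → Fld E M) (p : M) : Prop :=
  ∀ i j, Smooth (F i) ∧ ip (F i) (F j) p = if i = j then 1 else 0

/-- The value of the field `om` of alternating forms on the frame `F` at `p`. -/
def val (om : (p : M) → TangentSpace 𝓘(ℝ, E) p [⋀^Fin 4]→ₗ[ℝ] ℝ) (F : Fin 4 → Fld E M)
  (p : M) : ℝ := om p fun i => F i p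

/-- The entry `(i, j)` of the block of the curvature operator of an Einstein metric on the
self-dual two-forms, in the basis `F₀ ∧ Fᵢ + Fₖ ∧ Fₗ` (`i, k, l` cyclic) defined by an orthonormal
frame `F`; self-dual means self-dual for the orientation defined by `F`. -/
def SD (cov : Conn E M) (F : Fin 4 → Fld E M) (i j : Fin 3) (p : M) : ℝ :=
  Riem cov (F 0) (F i.succ) (F j.succ) (F 0) p +
    Riem cov (F 0) (F i.succ) (F (j + 2).succ) (F (j + 1).succ) p

end

end Vale.Agent.P211.SD
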