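import Mathlib.Algebra.Order.Archimedean.Real.Hom
import Mathlib.Algebra.Order.Star.Real
import Mathlib.Algebra.Ring.IsFormallyReal
import Mathlib.Analysis.Calculus.DerivativeTest
import Mathlib.Geometry.Manifold.BumpFunction
import Mathlib.Geometry.Manifold.DerivationBundle
import Mathlib.Geometry.Manifold.IntegralCurve.ExistUnique
import Mathlib.Geometry.Manifold.VectorBundle.CovariantDerivative.Basic
import Mathlib.Geometry.Manifold.VectorBundle.Riemannian
import Mathlib.Geometry.Manifold.VectorField.LieBracket
import Mathlib.RingTheory.Flat.TorsionFree
import Mathlib.RingTheory.SimpleRing.Principal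
import Mathlib.Tactic

/-! The part of Mathlib that the development of this folder uses. -/
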