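import Mathlib.Algebra.Order.Archimedean.Real.Hom
import Mathlib.Algebra.Order.Star.Real
import Mathlib.Algebra.Ring.IsFormallyReal
import Mathlib.Algebra.Ring.Subring.IntPolynomial
import Mathlib.Analysis.Calculus.BumpFunction.Normed
import Mathlib.Analysis.Calculus.Deriv.Abs
import Mathlib.Analysis.Calculus.DerivativeTest
import Mathlib.Analysis.InnerProductSpace.Trace
import Mathlib.Analysis.Matrix.Spectrum
import Mathlib.Geometry.Manifold.DerivationBundle
import Mathlib.Geometry.Manifold.IntegralCurve.ExistUnique
import Mathlib.Geometry.Manifold.PartitionOfUnity
import Mathlib.Geometry.Manifold.Riemannian.Basic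
import Mathlib.Geometry.Manifold.VectorBundle.CovariantDerivative.Basic
import Mathlib.Geometry.Manifold.VectorField.LieBracket
import Mathlib.MeasureTheory.Measure.RegularityCompacts
import Mathlib.Order.CompletePartialOrder
import Mathlib.RingTheory.DedekindDomain.SInteger
import Mathlib.RingTheory.Flat.TorsionFree
import Mathlib.RingTheory.SimpleRing.Principal
import Mathlib.Topology.Algebra.Polynomial
import Mathlib.Topology.UniformSpace.Uniformizable
import Mathlib.Tactic

/-! The part of Mathlib that the files of this folder use. -/
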